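import Mathlib.Analysis.InnerProductSpace.PiL2
import Mathlib.Analysis.InnerProductSpace.Projection.FiniteDimensional
import Mathlib.Algebra.Algebra.Subalgebra.Operations
import Mathlib.LinearAlgebra.Eigenspace.Basic
import Mathlib.LinearAlgebra.Matrix.ToLin

/-!
# P352H: algebra of functions, nilpotent matrices, projections that intertwine
-/

set_option linter.all false

namespace Vale.Agent.P352H

noncomputable section

variable {X : Type*}

/-- fractions with powers of `p` as denominators, on the set where `p` is not zero -/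
def loc (P : Subalgebra ℂ (X → ℂ)) (p : X → ℂ) (hp : p ∈ P) :
    Subalgebra ℂ ({x // p x ≠ 0} → ℂ) where
  carrier := {f | ∃ N : ℕ, ∃ h ∈ P, ∀ x : {x // p x ≠ 0}, p x.1 ^ N * f x = h x.1}
  mul_mem' := fun ⟨N, h, a, b⟩ ⟨N', h', a', b'⟩ => ⟨N + N', h * h', mul_mem a a', fun x => by
    rw [Pi.mul_apply, Pi.mul_apply, ← b, ← b']
    ring⟩
  add_mem' := fun ⟨N, h, a, b⟩ ⟨N', h', a', b'⟩ => ⟨N + N', p ^ N' * h + p ^ N * h',
    add_mem (mul_mem (pow_mem hp _) a) (mul_mem (pow_mem hp _) a'), fun x => by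
      simp only [Pi.mul_apply, Pi.add_apply, Pi.pow_apply, ← b, ← b']
      ring⟩
  algebraMap_mem' c := ⟨0, algebraMap ℂ _ c, algebraMap_mem _ c, fun x => by simp⟩

theorem loc_of {P : Subalgebra ℂ (X → ℂ)} {p : X → ℂ} (hp : p ∈ P) {h : X → ℂ} (a : h ∈ P) :
    (fun x => h x.1) ∈ loc P p hp := ⟨0, h, a, fun x => by simp⟩

theorem loc_inv {P : Subalgebra ℂ (X → ℂ)} {p : X → ℂ} (hp : p ∈ P) :
    (fun x => (p x.1)⁻¹) ∈ loc P p hp := ⟨1, 1, one_mem _, fun x => by
  rw [pow_one, mul_inv_cancel₀ x.2, Pi.one_apply]⟩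

theorem loc_out {P : Subalgebra ℂ (X → ℂ)} {p : X → ℂ} (hp : p ∈ P) {f : X → ℂ}
    (a : (fun x => f x.1) ∈ loc P p hp) : ∃ N : ℕ, p ^ N * f ∈ P := by
  obtain ⟨N, h, a, b⟩ := a
  refine ⟨N + 1, ?_⟩
  convert mul_mem hp a using 1
  funext x
  by_cases e : p x = 0
  · simp [e]
  · simp only [Pi.mul_apply, Pi.pow_apply, ← b ⟨x, e⟩]
    ring

/-- the sign -/
def sn (e : Bool) : ℝ := if e then 1 else -1

theorem sn_sq (e : Bool) : sn e * sn e = 1 := by cases e <;> simp [sn]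

/-- functions on the double cover -/
def dbl (A : Subalgebra ℂ (X → ℂ)) (p q : X → ℂ) (h1 : p * p ∈ A) (h2 : p * q ∈ A)
    (h3 : q * q ∈ A) : Subalgebra ℂ (Bool × X → ℂ) where
  carrier := {h | ∃ e ∈ A, ∃ a ∈ A, ∃ b ∈ A, ∀ y : Bool × X,
    h y = e y.2 + sn y.1 * (a y.2 * p y.2 + b y.2 * q y.2)}
  mul_mem' := fun ⟨e, he, a, ha, b, hb, h⟩ ⟨e', he', a', ha', b', hb', h'⟩ =>
    ⟨e * e' + (a * a' * (p * p) + (a * b' + b * a') * (p * q) + b * b' * (q * q)),
      add_mem (mul_mem he he') (add_mem (add_mem (mul_mem (mul_mem ha ha') h1)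
        (mul_mem (add_mem (mul_mem ha hb') (mul_mem hb ha')) h2)) (mul_mem (mul_mem hb hb') h3)),
      e * a' + a * e', add_mem (mul_mem he ha') (mul_mem ha he'),
      e * b' + b * e', add_mem (mul_mem he hb') (mul_mem hb he'), fun y => by
        have s : (sn y.1 : ℂ) * sn y.1 = 1 := by exact_mod_cast sn_sq y.1
        simp only [Pi.mul_apply, Pi.add_apply, h, h']
        linear_combination ((a y.2 * p y.2 + b y.2 * q y.2) * (a' y.2 * p y.2 + b' y.2 * q y.2)) * s⟩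
  add_mem' := fun ⟨e, he, a, ha, b, hb, h⟩ ⟨e', he', a', ha', b', hb', h'⟩ =>
    ⟨e + e', add_mem he he', a + a', add_mem ha ha', b + b', add_mem hb hb', fun y => by
      simp only [Pi.add_apply, h, h']
      ring⟩
  algebraMap_mem' c := ⟨algebraMap ℂ _ c, algebraMap_mem _ c, 0, zero_mem _, 0, zero_mem _,
    fun x => by simp⟩

theorem dbl_out {A : Subalgebra ℂ (X → ℂ)} {p q : X → ℂ} {h1 : p * p ∈ A} {h2 : p * q ∈ A}
    {h3 : q * q ∈ A} {f : X → ℂ} (h : (fun y => f y.2) ∈ dbl A p q h1 h2 h3) : f ∈ A := by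
  obtain ⟨e, he, a, -, b, -, h⟩ := h
  convert he using 1
  funext x
  have k1 := h (true, x)
  have k2 := h (false, x)
  simp only [sn, if_true, Bool.false_eq_true, if_false] at k1 k2
  push_cast at k1 k2
  linear_combination (k1 + k2) / 2

/-- a matrix that is conjugate to its double is nilpotent -/
theorem nil {n : ℕ} {B C E : Matrix (Fin n) (Fin n) ℂ} (h : B * E = ((2 : ℂ) • E) * B)
    (hi : B * C = 1) : ∃ N, E ^ N = 0 := by
  by_contra hc
  push Not at hc
  have p : ∀ j : ℕ, B * E ^ j = ((2 : ℂ) ^ j • E ^ j) * B := fun j => by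
    induction j with
    | zero => simp
    | succ j ih =>
      rw [pow_succ, ← mul_assoc, ih, mul_assoc, h]
      simp only [smul_mul_assoc, mul_smul_comm, smul_smul, mul_assoc, pow_succ, mul_comm (2 : ℂ)]
  let φ : Module.End ℂ (Matrix (Fin n) (Fin n) ℂ) :=
    (LinearMap.mulRight ℂ C).comp (LinearMap.mulLeft ℂ B)
  have li := Module.End.eigenvectors_linearIndependent' φ (fun j : ℕ => (2 : ℂ) ^ j)
    (fun i j e => by
      have e' : (2 : ℂ) ^ i = 2 ^ j := e
      have : (2 : ℕ) ^ i = 2 ^ j := by exact_mod_cast e'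
      exact Nat.pow_right_injective le_rfl this) (fun j => E ^ j) fun j =>
    ⟨Module.End.mem_eigenspace_iff.2 (by
      show B * E ^ j * C = _
      rw [p, mul_assoc, hi, mul_one]), hc j⟩
  exact Module.Finite.not_linearIndependent_of_infinite _ li

/-- **projection onto the part on which `ε` intertwines** -/
theorem itw {G E W : Type*} [NormedAddCommGroup E] [InnerProductSpace ℂ E] [FiniteDimensional ℂ E]
    [AddCommGroup W] [Module ℂ W] (m : G → G → G) (tr : G → G) (τ : G → E →ₗ[ℂ] E)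
    (ρ : G → W →ₗ[ℂ] W) (ε : E →ₗ[ℂ] W) (h1 : ∀ g h y, τ (m g h) y = τ g (τ h y))
    (h2 : ∀ g h y, ρ (m g h) y = ρ g (ρ h y))
    (h3 : ∀ g y z, inner ℂ (τ g y) z = inner ℂ y (τ (tr g) z)) :
    ∃ M : E →ₗ[ℂ] W, (∀ g y, M (τ g y) = ρ g (M y)) ∧
      ∀ y, (∀ g, ε (τ g y) = ρ g (ε y)) → M y = ε y := by
  let P : Submodule ℂ E :=
    { carrier := {y | ∀ g, ε (τ g y) = ρ g (ε y)}
      add_mem' := fun a b g => by simp only [map_add, a g, b g]
      zero_mem' := fun g => by simp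
      smul_mem' := fun c y a g => by simp only [map_smul, a g] }
  have i1 : ∀ g, ∀ y ∈ P, τ g y ∈ P := fun g y a h => by rw [← h1, a, h2, a]
  have i2 : ∀ g, ∀ y ∈ Pᗮ, τ g y ∈ Pᗮ := fun g y a => (Submodule.mem_orthogonal' _ _).2
    fun z b => by rw [h3]; exact (Submodule.mem_orthogonal' _ _).1 a _ (i1 _ _ b)
  let π : E →ₗ[ℂ] E := P.starProjection.toLinearMap
  have p1 : ∀ y ∈ P, π y = y := fun y a => Submodule.starProjection_eq_self_iff.2 a
  have p2 : ∀ y ∈ Pᗮ, π y = 0 := fun y a => (Submodule.starProjection_apply_eq_zero_iff P).2 a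
  refine ⟨ε ∘ₗ π, fun g y => ?_, fun y a => congrArg ε (p1 y a)⟩
  obtain ⟨u, a, v, b, rfl⟩ := P.exists_add_mem_mem_orthogonal y
  simp only [LinearMap.comp_apply, map_add, p1 _ a, p2 _ b, p1 _ (i1 g _ a), p2 _ (i2 g _ b),
    map_zero, add_zero]
  exact a g

end

end Vale.Agent.P352H
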