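import Vale.Agent.P352H.Tfg
import Vale.Agent.P352NA.W0
import Vale.Agent.P352NA.PF.Main
import Vale.Agent.P352NA.MOM.R1
import Vale.Agent.P352L.Final

/-!
# P352H: the theorem without the hypothesis on tensor fields
-/

set_option linter.all false

open Filter Topology

namespace Vale.Agent.P352H

open Vale.Agent.P352 Vale.Agent.P352.GF Vale.Agent.P352.BW Vale.Agent.P352.H246
open Vale.Agent.P352.H496 Vale.Agent.P352.H755 Vale.Agent.P352.H15
open Vale.Agent.P352X Vale.Agent.P352NA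
open UniformSpace (Completion)

noncomputable section

universe u

variable {D : Type u} [NormedAddCommGroup D] [InnerProductSpace ℂ D]

section

open Vale.Agent.P352L StA

/-- **there are no logarithms in dimension four** -/
theorem nolog (Q : Theory D) (T : Ix → Ix → Fld D) (hT : Stress0 Q T) (A : (V → V) → D → D)
    (hA : ND.PCh Q T A) (hM : MfAll Q) (hF : FSL Q) (N : Set V → VonNeumannAlgebra (Completion D))
    (hN : LNm Q A N) (hU : L.UVac Q) : NoLog Q T := by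
  choose F C hC using fun m n => hF (T m n) (Q.bose_fld _ (hT.bose m n))
  obtain ⟨n0, h1, h2⟩ := fam hN.toRep hF hT hA hC
  have h6 := StA.nolog hT hC fun m n h => triv (Q := hull Q) (rep hN.toRep) hU (h1.st 0) (h2 0) h
  obtain ⟨b, e1, e2, -⟩ := ex_base (hull Q) A N (P352H.tfg hN.toRep hM) (lnm hN) hU
  rw [← e2] at h2
  rw [← e1] at h1 h2
  obtain ⟨LL, l1, l2⟩ := ex_pot b h1
  let c := ctx0 b h1 h2 l1 l2
  exact h6 (end_of c ((last D).rows.t3 c) ((last D).rows.main c))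

end

open EB EB.NA in
theorem fin2 (Q : Theory D) (T' : Ix → Ix → Fld D) (a1 : Q.IsStress T') (A : (V → V) → D → D)
    (a2 : ND.PCh Q T' A) (hG : TfGen Q) (hM : MfAll Q) (hF : FSL Q)
    (N : Set V → VonNeumannAlgebra (Completion D)) (hN : LNm Q A N) (hU : L.UVac Q) :
    ∃ (D' : Submodule ℂ (Completion D)) (Q' : Theory D') (e : Fld D → Fld D') (L : Fld D'),
      Ext0 Q Q' e ∧ AfW N Q' (↑) ∧ Q'.IsStress (fun m n => e (T' m n)) ∧ Q'.IsScalar L 2 ∧
      (∀ f v, IsTest f → tr (fun m n => e (T' m n)) f v = (3 : ℂ) • L (box f) v) ∧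
      ∀ Q'' : Theory D', IsEnl Q' Q'' → IsImpr Q'' (fun m n => e (T' m n))
        (improve (fun m n => e (T' m n)) L) ∧ ConfAct Q'' (improve (fun m n => e (T' m n)) L) ∧
        CFS Q'' id (improve (fun m n => e (T' m n)) L) ∧
        ∀ B, Q'.fld B → ∃ (n : ℕ) (C : Fin n → Fld D'),
          (∀ i, DescS Q'' id (improve (fun m n => e (T' m n)) L) false (C i)) ∧
          ∀ f v, IsTest f → B f v = ∑ i, C i f v := by
  have pf : ∀ c : Ctx D, N0 c → COV c → PF c := fun _ => pf_row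
  have rig : ∀ ι : Type u, RIG ι := fun ι => rig_row ι
  obtain ⟨c, rfl, rfl, rfl, tp⟩ := EG.Pt.ctxN Q T' A N a1 a2 hG hN hU
  haveI : Fact c.tp := ⟨tp⟩
  have t := e0_thm c (main c).1
  have t0 : N0 c := ⟨t, ee_thm c, hM, hF⟩
  have hc := cov_row t0
  have p := pf c t0 hc
  obtain ⟨D', Q', e, L, h1, h0, h2, h3, h4, h6⟩ :=
    fin_row ⟨t, hc, wrd_row t hc p rig, loc_row t hc p rig⟩
  refine ⟨D', Q', e, L, h1, h0, h2, h3, h4, fun Q'' n => ?_⟩
  obtain ⟨h7, h8⟩ := scal_row D' Q' _ L h2 h3 h4 Q'' n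
  have hT'' := H746.isStress_enl n h2
  have g := (ext_gm t h1).enl n
  let k : CA.G.Cx D' := ⟨Q'', _, id, isT_of_impr h7 hT'',
    fun m n k l f g v hf hg h => sub_eq_zero.1 (h7.self m n k l f g v hf hg h), h7.cov,
    ⟨_, hT''.bose o o⟩, fun _ => rfl, fun _ _ => rfl, fun _ _ _ _ _ => rfl, fun _ _ _ _ _ _ => rfl,
    fun C hC => ⟨1, fun _ => 1, fun _ => C, fun _ => hC, fun g v _ => by simp⟩,
    fun s L a s' L' a' hs hs' hL hL' => .inl fun v => g.mul s L a s' L' a' v hs hs' hL hL',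
    fun F w _ => g.mix w _⟩
  obtain ⟨x, f0, al⟩ := CA.G.all_thm k
  have tl := tl_id k rfl
  have cf : CFS Q'' id (improve (fun m n => e (c.T m n)) L) := CA.G.cfs' al tl
  refine ⟨h7, h8, cf, fun B hB => ?_⟩
  obtain ⟨m, C, hC, h⟩ := h6 B hB
  have key : ∀ i, ∃ (r : ℕ) (C' : Fin r → Fld D'),
      (∀ j, DescS Q'' id (improve (fun m n => e (c.T m n)) L) false (C' j)) ∧
      ∀ f v, IsTest f → C i f v = ∑ j, C' j f v := fun i => by
    rcases hC i with h | ⟨C', a, b⟩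
    · exact ⟨1, fun _ => L, fun _ => EG.desc_scal cf (scalar_enl n h3), fun _ _ _ => by simp [h]⟩
    · obtain ⟨r, C'', a1, a2⟩ := desc_fld t h1 hc n hM hF (CA.G.descM al tl false) a
      exact ⟨r, C'', a1, fun f v hf => (b f v hf).trans (a2 f v hf)⟩
  choose r C' b1 b2 using key
  let E := (Fintype.equivFin (Σ i, Fin (r i))).symm
  refine ⟨_, fun j => C' (E j).1 (E j).2, fun j => b1 _ _, fun f v hf => (h f v).trans ?_⟩
  rw [E.sum_comp fun j => C' j.1 j.2 f v, Fintype.sum_sigma]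
  exact Finset.sum_congr rfl fun i _ => b2 i f v hf

open P352L.StA in
theorem ext0 {Q : Theory D} {D' : Submodule ℂ (Completion D)} {Q' : Theory D'}
    {e : Fld D → Fld D'} (h : Ext0 (hull Q) Q' e) : Ext0 Q Q' e := by
  have c : ∀ w, Cyc Q w → Cyc (hull Q) w := fun w hw S h0 h1 =>
    hw S h0 fun B f v hB => h1 B f v (sp_of hB)
  exact ⟨fun w hw => h.mem w (c w hw), h.vac, h.U, fun B hB => h.fld B (sp_of hB),
    fun B B' a b => h.adj B B' (sp_of a) (sp_of b),
    fun B f v w a b hw => h.agree B f v w (sp_of a) b (c w hw)⟩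

/-- **the theorem without the hypothesis on tensor fields** -/
theorem final (Q : Theory D) (T : Ix → Ix → Fld D) (hT : Stress0 Q T) (A : (V → V) → D → D)
    (hA : ND.PCh Q T A) (hM : MfAll Q) (hF : FSL Q)
    (N : Set V → VonNeumannAlgebra (Completion D)) (hN : LNm Q A N) (hU : L.UVac Q) :
    NoLog Q T ∧ ∃ T', Q.IsStress T' ∧ ND.PCh Q T' A ∧
    ∃ (D' : Submodule ℂ (Completion D)) (Q' : Theory D') (e : Fld D → Fld D') (L : Fld D'),
      Ext0 Q Q' e ∧ AfW N Q' (↑) ∧ Q'.IsStress (fun m n => e (T' m n)) ∧ Q'.IsScalar L 2 ∧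
      (∀ f v, IsTest f → tr (fun m n => e (T' m n)) f v = (3 : ℂ) • L (box f) v) ∧
      ∀ Q'' : Theory D', IsEnl Q' Q'' → IsImpr Q'' (fun m n => e (T' m n))
        (improve (fun m n => e (T' m n)) L) ∧ ConfAct Q'' (improve (fun m n => e (T' m n)) L) ∧
        CFS Q'' id (improve (fun m n => e (T' m n)) L) ∧
        ∀ B, Q'.fld B → ∃ (n : ℕ) (C : Fin n → Fld D'),
          (∀ i, DescS Q'' id (improve (fun m n => e (T' m n)) L) false (C i)) ∧
          ∀ f v, IsTest f → B f v = ∑ i, C i f v := by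
  have hL := nolog Q T hT A hA hM hF N hN hU
  obtain ⟨T', a1, -, a3⟩ := CL.fssL (Fss.G.m1_rep hN.toRep) hF hT hL
  have a2 := (a3 A hN.toRep hA).1
  obtain ⟨D', Q', e, L, h1, h2⟩ := fin2 (P352L.StA.hull Q) T' (str a1) A
    (pch hN.toRep (fun m n => Q.bose_fld _ (a1.bose m n)) a2) (tfg hN.toRep hM) (mfa hM) (fsl hF) N
    (P352L.StA.lnm hN) hU
  exact ⟨hL, T', a1, a2, D', Q', e, L, ext0 h1, h2⟩

end

end Vale.Agent.P352H
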