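import Vale.Agent.P352H.Pol

/-!
# P352H: representations of the Lorentz group are quotients of sums of tensor representations
-/

set_option linter.all false

namespace Vale.Agent.P352H

open Vale.Agent.P352 Vale.Agent.P352.GF Vale.Agent.P352X
open Vale.Agent.P352X.CA (As mm)
open Vale.Agent.P352X.CA.G.Rp0 (lor_mm)
open Matrix

noncomputable section

/-- the tensor representations -/
def tn {r : ℕ} (L : Ix → V) (ν μ : Fin r → Ix) : ℂ := ((∏ i, L (ν i) (μ i) : ℝ) : ℂ)

theorem tn_mm {r : ℕ} (L L' : Ix → V) (ν μ : Fin r → Ix) :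
    tn (mm L L') ν μ = ∑ κ, tn L ν κ * tn L' κ μ := by
  simp only [tn, mm, ← Complex.ofReal_mul, ← Complex.ofReal_sum, ← Finset.prod_mul_distrib]
  rw [Finset.prod_univ_sum, Fintype.piFinset_univ]

theorem tn_one {r : ℕ} (ν μ : Fin r → Ix) : tn GF.one ν μ = if μ = ν then 1 else 0 := by
  simp only [tn, GF.one, bas, Finset.prod_boole, Finset.mem_univ, true_imp_iff, funext_iff]
  split_ifs <;> simp

/-- the monomials -/
def Mo : Set (Lo → ℂ) := {f | ∃ (r : ℕ) (ν μ : Fin r → Ix), f = fun L => tn L.1 ν μ}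

theorem po_span {f : Lo → ℂ} (h : f ∈ Po) : f ∈ Submodule.span ℂ Mo := by
  rw [Po, ← Subalgebra.mem_toSubmodule, Algebra.adjoin_eq_span] at h
  refine Submodule.span_mono (fun g hg => ?_) h
  induction hg using Submonoid.closure_induction with
  | mem x hx =>
    obtain ⟨p, rfl⟩ := hx
    exact ⟨1, fun _ => p.1, fun _ => p.2, by simp [tn]⟩
  | one => exact ⟨0, Fin.elim0, Fin.elim0, by funext L; simp [tn]⟩
  | mul x y _ _ hx hy =>
    obtain ⟨r, ν, μ, rfl⟩ := hx
    obtain ⟨r', ν', μ', rfl⟩ := hy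
    exact ⟨r + r', Fin.append ν ν', Fin.append μ μ', by
      funext L
      simp [tn, Fin.prod_univ_add]⟩

theorem lor_tr {L : Ix → V} (h : IsLor L) : IsLor fun m n => L n m :=
  ⟨fun m n => lor_transpose h m n, h.2.1, (Matrix.det_transpose (Matrix.of L)).trans h.2.2⟩

/-- intertwiners from a tensor representation -/
def Iw (k : Rp) {r : ℕ} (M : (Fin r → Ix) → Fin k.n → ℂ) : Prop :=
  ∀ μ L, IsLor L → k.ρ L *ᵥ M μ = ∑ ν, tn L ν μ • M ν

section act

variable {J : Type} [Fintype J] (r : J → ℕ)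

abbrev Sp := EuclideanSpace ℂ (Σ p : J, Fin (r p) → Ix)

/-- the action on a sum of tensor representations -/
def ac (g : Lo) : Sp r →ₗ[ℂ] Sp r where
  toFun y := WithLp.toLp 2 fun i => ∑ μ, tn g.1 i.2 μ * y ⟨i.1, μ⟩
  map_add' y z := by
    ext i
    simp [mul_add, Finset.sum_add_distrib]
  map_smul' c y := by
    ext i
    simp [Finset.mul_sum, mul_left_comm]

theorem ac_ap (g : Lo) (y : Sp r) (p : J) (ν : Fin (r p) → Ix) :
    ac r g y ⟨p, ν⟩ = ∑ μ, tn g.1 ν μ * y ⟨p, μ⟩ := rfl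

theorem ac_mul (g h : Lo) (y : Sp r) :
    ac r ⟨mm g.1 h.1, lor_mm h.2 g.2⟩ y = ac r g (ac r h y) := by
  ext ⟨p, ν⟩
  simp only [ac_ap, tn_mm, Finset.sum_mul, Finset.mul_sum, mul_assoc]
  exact Finset.sum_comm

theorem ac_adj (g : Lo) (y z : Sp r) :
    inner ℂ (ac r g y) z = inner ℂ y (ac r ⟨_, lor_tr g.2⟩ z) := by
  simp only [PiLp.inner_apply, Fintype.sum_sigma, ac_ap, RCLike.inner_apply, map_sum, map_mul,
    Finset.sum_mul, Finset.mul_sum]
  refine Finset.sum_congr rfl fun p _ => Finset.sum_comm.trans ?_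
  refine Finset.sum_congr rfl fun μ _ => Finset.sum_congr rfl fun ν _ => ?_
  simp only [tn, Complex.conj_ofReal]
  ring

end act

/-- **the images of the intertwiners span the representation** -/
theorem span_iw {k : Rp} (t : Tr k) (b : Fin k.n) : (Pi.single b 1 : Fin k.n → ℂ) ∈
    Submodule.span ℂ {x | ∃ (r : ℕ) (M : (Fin r → Ix) → Fin k.n → ℂ) (μ : Fin r → Ix),
      Iw k M ∧ x = M μ} := by
  classical
  choose N c g hg using fun a => Submodule.mem_span_set'.1 (po_span (pol t a b))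
  choose r ν μ e using fun p : Σ a, Fin (N a) => (g p.1 p.2).2
  let ε : Sp r →ₗ[ℂ] Fin k.n → ℂ :=
    { toFun := fun y a => ∑ i, y ⟨⟨a, i⟩, ν ⟨a, i⟩⟩
      map_add' := fun y z => by
        funext a
        simp [Finset.sum_add_distrib]
      map_smul' := fun c y => by
        funext a
        simp [Finset.mul_sum] }
  obtain ⟨M, h1, h2⟩ := itw (fun g h : Lo => ⟨mm g.1 h.1, lor_mm h.2 g.2⟩)
    (fun g => ⟨_, lor_tr g.2⟩) (ac r) (fun g => (k.ρ g.1).mulVecLin) ε (ac_mul r)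
    (fun g h y => by simp only [mulVecLin_apply, t _ _ h.2 g.2, mulVec_mulVec]) (ac_adj r)
  let y : Sp r := WithLp.toLp 2 fun i => if i.2 = μ i.1 then c i.1.1 i.1.2 else 0
  have y1 : ∀ L : Lo, ε (ac r L y) = k.ρ L.1 *ᵥ Pi.single b 1 := fun L => by
    funext a
    have := congrFun (hg a) L
    simp only [Finset.sum_apply, Pi.smul_apply, smul_eq_mul] at this
    rw [mulVec_single_one, Matrix.col_apply, ← this]
    show ∑ i, ac r L y ⟨⟨a, i⟩, ν ⟨a, i⟩⟩ = _
    refine Finset.sum_congr rfl fun i _ => ?_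
    rw [ac_ap, e ⟨a, i⟩]
    simp [y, mul_comm]
  have y2 : ε y = Pi.single b 1 := by
    have := y1 ⟨GF.one, H496.isLor_one⟩
    rw [k.id, one_mulVec] at this
    rw [← this]
    congr 1
    ext ⟨p, κ⟩
    simp [ac_ap, tn_one]
  have y3 : M y = Pi.single b 1 := (h2 y fun L => by rw [y1, y2, mulVecLin_apply]).trans y2
  rw [← y3, ← (EuclideanSpace.basisFun _ ℂ).sum_repr y, map_sum]
  refine sum_mem fun i _ => ?_
  rw [map_smul]
  refine Submodule.smul_mem _ _ (Submodule.subset_span ⟨r i.1,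
    fun κ => M (EuclideanSpace.basisFun _ ℂ ⟨i.1, κ⟩), i.2, fun κ L hL => ?_, rfl⟩)
  rw [← mulVecLin_apply, ← h1 ⟨L, hL⟩]
  simp only [← map_smul, ← map_sum]
  congr 1
  ext ⟨p, κ'⟩
  by_cases h : p = i.1
  · subst h
    simp [ac_ap, Pi.single_apply]
  · simp [ac_ap, Pi.single_apply, h]

end

end Vale.Agent.P352H
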