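import Vale.Agent.P352X.EG.RPX

/-!
# P352H: the Gauss decomposition of Lorentz transformations
-/

set_option linter.all false

namespace Vale.Agent.P352H

open Vale.Agent.P352 Vale.Agent.P352.GF
open Vale.Agent.P352X.CA (As mm)
open Vale.Agent.P352X.CA.Mat (e0' e1 e2' e3 one_eq)
open Vale.Agent.P352X.CA.G.Rp0 (lor_mm mm_assoc mm_one one_mm)

noncomputable section

/-- null rotations that fix `e0 + e1` -/
def Np (u v : ℝ) : Ix → V := ![![1 + (u ^ 2 + v ^ 2) / 2, (u ^ 2 + v ^ 2) / 2, u, v],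
  ![-((u ^ 2 + v ^ 2) / 2), 1 - (u ^ 2 + v ^ 2) / 2, -u, -v], ![u, u, 1, 0], ![v, v, 0, 1]]

/-- null rotations that fix `e0 - e1` -/
def Nm (u v : ℝ) : Ix → V := ![![1 + (u ^ 2 + v ^ 2) / 2, -((u ^ 2 + v ^ 2) / 2), u, v],
  ![(u ^ 2 + v ^ 2) / 2, 1 - (u ^ 2 + v ^ 2) / 2, u, v], ![u, -u, 1, 0], ![v, -v, 0, 1]]

/-- boosts times rotations -/
def Dg (l c s : ℝ) : Ix → V := ![![(l + l⁻¹) / 2, (l - l⁻¹) / 2, 0, 0],
  ![(l - l⁻¹) / 2, (l + l⁻¹) / 2, 0, 0], ![0, 0, c, s], ![0, 0, -s, c]]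

def Wr : Ix → V := ![![1, 0, 0, 0], ![0, -1, 0, 0], ![0, 0, -1, 0], ![0, 0, 0, 1]]

def Rr (σ : ℝ) : Ix → V := ![![1, 0, 0, 0], ![0, 1, 0, 0], ![0, 0, 0, σ], ![0, 0, -σ, 0]]

def wn : Ix → V := ![![0, 0, 1, 0], ![0, 0, -1, 0], ![1, 1, 0, 0], ![0, 0, 0, 0]]

theorem det4 (M : Ix → V) : Matrix.det M =
    M 0 0 * (M 1 1 * (M 2 2 * M 3 3 - M 2 3 * M 3 2) - M 1 2 * (M 2 1 * M 3 3 - M 2 3 * M 3 1) +
      M 1 3 * (M 2 1 * M 3 2 - M 2 2 * M 3 1)) -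
    M 0 1 * (M 1 0 * (M 2 2 * M 3 3 - M 2 3 * M 3 2) - M 1 2 * (M 2 0 * M 3 3 - M 2 3 * M 3 0) +
      M 1 3 * (M 2 0 * M 3 2 - M 2 2 * M 3 0)) +
    M 0 2 * (M 1 0 * (M 2 1 * M 3 3 - M 2 3 * M 3 1) - M 1 1 * (M 2 0 * M 3 3 - M 2 3 * M 3 0) +
      M 1 3 * (M 2 0 * M 3 1 - M 2 1 * M 3 0)) -
    M 0 3 * (M 1 0 * (M 2 1 * M 3 2 - M 2 2 * M 3 1) - M 1 1 * (M 2 0 * M 3 2 - M 2 2 * M 3 0) +
      M 1 2 * (M 2 0 * M 3 1 - M 2 1 * M 3 0)) := by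
  change Matrix.det (Matrix.of M) = _
  rw [Matrix.det_succ_row_zero]
  simp [Matrix.det_fin_three, Fin.sum_univ_four, Fin.succAbove]
  ring

theorem md (x y : V) : GF.mdot x y = x 0 * y 0 - x 1 * y 1 - x 2 * y 2 - x 3 * y 3 := by
  simp only [GF.mdot, Fin.sum_univ_four, e0', e1, e2', e3]
  ring

theorem np_lor (u v : ℝ) : IsLor (Np u v) := by
  refine ⟨fun m n => ?_, ?_, ?_⟩
  · fin_cases m <;> fin_cases n <;> simp [Np, md, bas, e0', e1, e2', e3] <;> ring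
  · show 0 < 1 + (u ^ 2 + v ^ 2) / 2
    positivity
  · simp [det4, Np]
    ring

theorem wr_lor : IsLor Wr := by
  refine ⟨fun m n => ?_, one_pos, by simp [det4, Wr]⟩
  fin_cases m <;> fin_cases n <;> simp [Wr, md, bas, e0', e1, e2', e3]

theorem rr_lor {σ : ℝ} (h : σ * σ = 1) : IsLor (Rr σ) := by
  refine ⟨fun m n => ?_, one_pos, by simp [det4, Rr, h]⟩
  fin_cases m <;> fin_cases n <;> simp [Rr, md, bas, e0', e1, e2', e3, h]

theorem dg_lor : IsLor (Dg 2⁻¹ 1 0) := by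
  refine ⟨fun m n => ?_, ?_, ?_⟩
  · fin_cases m <;> fin_cases n <;> simp [Dg, md, bas, e0', e1, e2', e3] <;> norm_num
  · show (0 : ℝ) < (2⁻¹ + 2⁻¹⁻¹) / 2
    positivity
  · simp [det4, Dg]
    norm_num

theorem np_add (u v u' v' : ℝ) : mm (Np u v) (Np u' v') = Np (u + u') (v + v') := by
  funext m n
  fin_cases m <;> fin_cases n <;> simp [mm, Np, Fin.sum_univ_four] <;> ring

theorem np_zero : Np 0 0 = GF.one := by
  rw [one_eq]
  simp [Np]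

theorem np_rot (v : ℝ) : Np 0 v = mm (mm (Rr (-1)) (Np v 0)) (Rr 1) := by
  funext m n
  fin_cases m <;> fin_cases n <;> simp [mm, Np, Rr, Fin.sum_univ_four]

theorem nm_eq (u v : ℝ) : Nm u v = mm (mm Wr (Np (-u) v)) Wr := by
  funext m n
  fin_cases m <;> fin_cases n <;> simp [mm, Np, Nm, Wr, Fin.sum_univ_four]

theorem nm_lor (u v : ℝ) : IsLor (Nm u v) :=
  nm_eq u v ▸ lor_mm wr_lor (lor_mm (np_lor _ _) wr_lor)

theorem nm_inv (u v : ℝ) : mm (Nm (-u) (-v)) (Nm u v) = GF.one := by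
  rw [one_eq]
  funext m n
  fin_cases m <;> fin_cases n <;> simp [mm, Nm, Fin.sum_univ_four] <;> ring

theorem np_der (m n : Ix) : HasDerivAt (fun e => Np e 0 m n) (wn m n) 0 := by
  have a : HasDerivAt (fun e : ℝ => (e ^ 2 + 0 ^ 2) / 2) 0 0 :=
    (((hasDerivAt_pow 2 (0 : ℝ)).add_const ((0 : ℝ) ^ 2)).div_const 2).congr_deriv (by simp)
  have b := hasDerivAt_id' (0 : ℝ)
  fin_cases m <;> fin_cases n <;>
    first | exact a | exact b | exact b.neg | exact hasDerivAt_const _ _ | skip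
  · exact a.const_add 1
  · exact a.neg.congr_deriv neg_zero
  · exact (a.const_sub 1).congr_deriv neg_zero

theorem as_wn (r : ℝ) : As (0 + r • wn) := fun m n => by
  fin_cases m <;> fin_cases n <;> simp [wn, e0', e1, e2', e3]

theorem dg_wn : mm (Dg 2⁻¹ 1 0) (0 + (1 : ℝ) • wn) = mm (0 + (2 : ℝ) • wn) (Dg 2⁻¹ 1 0) := by
  funext m n
  fin_cases m <;> fin_cases n <;> simp [mm, Dg, wn, Fin.sum_univ_four] <;> norm_num

theorem dg_eq {p q : ℝ} (h : p ^ 2 + q ^ 2 ≠ 0) :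
    Dg (p ^ 2 + q ^ 2) ((p ^ 2 - q ^ 2) / (p ^ 2 + q ^ 2)) (2 * p * q / (p ^ 2 + q ^ 2)) =
      mm Wr (mm (mm (Np p q) (Nm (-((p ^ 2 + q ^ 2)⁻¹ * p)) (-((p ^ 2 + q ^ 2)⁻¹ * q)))) (Np p q)) := by
  funext m n
  fin_cases m <;> fin_cases n <;> simp [mm, Np, Nm, Wr, Dg, Fin.sum_univ_four] <;> field_simp <;> ring

theorem ex_pq {l c s : ℝ} (hl : 0 < l) (h : c ^ 2 + s ^ 2 = 1) :
    ∃ p q : ℝ, p ^ 2 = l * (1 + c) / 2 ∧ q ^ 2 = l * (1 - c) / 2 ∧ p * q = l * s / 2 := by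
  have a : 0 ≤ l * (1 + c) / 2 := by
    have : 0 ≤ 1 + c := by nlinarith [sq_nonneg s, sq_nonneg (c + 1)]
    positivity
  have b : 0 ≤ l * (1 - c) / 2 := by
    have : 0 ≤ 1 - c := by nlinarith [sq_nonneg s, sq_nonneg (c - 1)]
    positivity
  have e : (√(l * (1 + c) / 2) * √(l * (1 - c) / 2)) ^ 2 = (l * s / 2) ^ 2 := by
    rw [mul_pow, Real.sq_sqrt a, Real.sq_sqrt b]
    linear_combination (-(l ^ 2 / 4)) * h
  rcases sq_eq_sq_iff_eq_or_eq_neg.1 e with e | e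
  · exact ⟨_, _, Real.sq_sqrt a, Real.sq_sqrt b, e⟩
  · exact ⟨_, -_, Real.sq_sqrt a, by rw [neg_sq, Real.sq_sqrt b], by rw [mul_neg, e, neg_neg]⟩

theorem diag {M : Ix → V} (h : IsLor M) {l : ℝ} (a0 : M 0 0 + M 1 0 = l)
    (a1 : M 0 1 + M 1 1 = l) (a2 : M 0 2 + M 1 2 = 0) (a3 : M 0 3 + M 1 3 = 0) (b : M 2 0 = 0)
    (c : M 3 0 = 0) : 0 < l ∧ M 2 2 ^ 2 + M 2 3 ^ 2 = 1 ∧ M = Dg l (M 2 2) (M 2 3) := by
  have h00 := h.1 0 0
  have h01 := h.1 0 1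
  have h02 := h.1 0 2
  have h03 := h.1 0 3
  have h12 := h.1 1 2
  have h13 := h.1 1 3
  have h22 := h.1 2 2
  have h23 := h.1 2 3
  have hd := h.2.2
  have hp : 0 < M 0 0 := h.2.1
  simp [md, bas, e0', e1, e2', e3] at h00 h01 h02 h03 h12 h13 h22 h23
  rw [det4] at hd
  have e10 : M 1 0 = l - M 0 0 := by linarith
  have e11 : M 1 1 = l - M 0 1 := by linarith
  have e12 : M 1 2 = -M 0 2 := by linarith
  have e13 : M 1 3 = -M 0 3 := by linarith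
  rw [e10, e11, e12, e13] at h01 h12 h13 hd
  rw [b] at h02 h12 h22 h23 hd
  rw [c] at h03 h13 h23 hd
  have k : l * (M 0 0 - M 0 1) = 1 := by linear_combination h00 + h01
  have hl : l ≠ 0 := left_ne_zero_of_mul_eq_one k
  have e21 : M 2 1 = 0 := mul_left_cancel₀ hl (by linear_combination -h02 - h12)
  have e31 : M 3 1 = 0 := mul_left_cancel₀ hl (by linear_combination -h03 - h13)
  rw [e21] at h02 h22 h23 hd
  rw [e31] at h03 h23 hd
  have d : M 2 2 * M 3 3 - M 2 3 * M 3 2 = 1 := by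
    linear_combination hd - (M 2 2 * M 3 3 - M 2 3 * M 3 2) * k
  have n : M 2 2 ^ 2 + M 2 3 ^ 2 = 1 := by linear_combination -h22
  have e32 : M 3 2 = -M 2 3 := by linear_combination -M 3 2 * n - M 2 2 * h23 - M 2 3 * d
  have e33 : M 3 3 = M 2 2 := by linear_combination -M 3 3 * n - M 2 3 * h23 + M 2 2 * d
  rw [e32, e33] at h03
  have e02 : M 0 2 = 0 := by linear_combination -M 0 2 * n - M 2 2 * h02 + M 2 3 * h03
  have e03 : M 0 3 = 0 := by linear_combination -M 0 3 * n - M 2 3 * h02 - M 2 2 * h03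
  rw [e02, e03] at h00
  have s : M 0 0 + M 0 1 = l := by linear_combination l * h00 - (M 0 0 + M 0 1) * k
  have i : l⁻¹ = M 0 0 - M 0 1 := inv_eq_of_mul_eq_one_right k
  refine ⟨?_, n, ?_⟩
  · by_contra hn
    have l0 : l < 0 := lt_of_le_of_ne (not_lt.1 hn) hl
    have := inv_lt_zero.2 l0
    linarith
  · funext m n
    fin_cases m <;> fin_cases n <;> simp [Dg, i, e10, e11, e12, e13, b, c, e21, e31, e32, e33, e02,
      e03] <;> linarith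

/-- half the sum of the upper left block -/
def lam (L : Ix → V) : ℝ := (L 0 0 + L 1 0 + (L 0 1 + L 1 1)) / 2

/-- **the Gauss decomposition** -/
theorem gauss {L : Ix → V} (h : IsLor L) (hl : lam L ≠ 0) {u v x y : ℝ} {M M' : Ix → V}
    (hu : u = (lam L)⁻¹ * ((L 0 2 + L 1 2) / 2)) (hv : v = (lam L)⁻¹ * ((L 0 3 + L 1 3) / 2))
    (hM : M = mm L (Nm (-u) (-v))) (hx : x = (lam L)⁻¹ * M 2 0) (hy : y = (lam L)⁻¹ * M 3 0)
    (hM' : M' = mm (Np (-x) (-y)) M) : 0 < lam L ∧ M' 2 2 ^ 2 + M' 2 3 ^ 2 = 1 ∧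
      L = mm (mm (Np x y) (Dg (lam L) (M' 2 2) (M' 2 3))) (Nm u v) := by
  have l1 : IsLor M := hM ▸ lor_mm (nm_lor _ _) h
  have l2 : IsLor M' := hM' ▸ lor_mm l1 (np_lor _ _)
  have h00 := h.1 0 0
  have h01 := h.1 0 1
  have h11 := h.1 1 1
  simp [md, bas, e0', e1] at h00 h01 h11
  obtain ⟨l, el⟩ : ∃ l, l = lam L := ⟨_, rfl⟩
  rw [← el] at hl hu hv hx hy ⊢
  rw [lam] at el
  have u1 : L 0 2 + L 1 2 = 2 * l * u := by rw [hu]; field_simp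
  have v1 : L 0 3 + L 1 3 = 2 * l * v := by rw [hv]; field_simp
  have r : L 0 0 + L 1 0 - (L 0 1 + L 1 1) = 2 * l * (u ^ 2 + v ^ 2) :=
    mul_left_cancel₀ hl (by
      have : (L 0 0 + L 1 0) ^ 2 - (L 0 1 + L 1 1) ^ 2 =
          (L 0 2 + L 1 2) ^ 2 + (L 0 3 + L 1 3) ^ 2 := by linear_combination h00 + 2 * h01 + h11
      rw [u1, v1] at this
      linear_combination this / 2 + (L 0 0 + L 1 0 - (L 0 1 + L 1 1)) * el)
  have a0 : M 0 0 + M 1 0 = l := by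
    simp [hM, mm, Nm, Fin.sum_univ_four]
    linear_combination r / 2 - (1 + (u ^ 2 + v ^ 2)) * el - u * u1 - v * v1
  have a1 : M 0 1 + M 1 1 = l := by
    simp [hM, mm, Nm, Fin.sum_univ_four]
    linear_combination -r / 2 - (1 - (u ^ 2 + v ^ 2)) * el + u * u1 + v * v1
  have a2 : M 0 2 + M 1 2 = 0 := by
    simp [hM, mm, Nm, Fin.sum_univ_four]
    linear_combination 2 * u * el + u1
  have a3 : M 0 3 + M 1 3 = 0 := by
    simp [hM, mm, Nm, Fin.sum_univ_four]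
    linear_combination 2 * v * el + v1
  have x1 : M 2 0 = l * x := by rw [hx]; field_simp
  have y1 : M 3 0 = l * y := by rw [hy]; field_simp
  have s : ∀ n, M' 0 n + M' 1 n = M 0 n + M 1 n := fun n => by
    simp [hM', mm, Np, Fin.sum_univ_four]
    ring
  obtain ⟨p1, p2, p3⟩ := diag l2 ((s 0).trans a0) ((s 1).trans a1) ((s 2).trans a2)
    ((s 3).trans a3) (by
      simp [hM', mm, Np, Fin.sum_univ_four]
      linear_combination x1 - x * a0) (by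
      simp [hM', mm, Np, Fin.sum_univ_four]
      linear_combination y1 - y * a0)
  refine ⟨p1, p2, ?_⟩
  rw [← p3, hM', ← mm_assoc, np_add, add_neg_cancel, add_neg_cancel, np_zero, one_mm, hM, mm_assoc,
    nm_inv, mm_one]

end

end Vale.Agent.P352H
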