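import Vale.Agent.P352H.Alg
import Vale.Agent.P352H.Mat

/-!
# P352H: the matrix elements of a representation of the Lorentz group are polynomials
-/

set_option linter.all false

namespace Vale.Agent.P352H

open Vale.Agent.P352 Vale.Agent.P352.GF Vale.Agent.P352X
open Vale.Agent.P352X.CA (As mm)
open Vale.Agent.P352X.CA.G (sg rep_row)
open Vale.Agent.P352X.CA.G.Rp0 (lor_mm mm_assoc mm_one one_mm sg_lin sg_zero)
open Vale.Agent.P352X.EG.Rpx (xp xp_add grp)

noncomputable section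

/-- representations without signs -/
def Tr (k : Rp) : Prop := ∀ L L', IsLor L → IsLor L' → k.ρ (mm L' L) = k.ρ L' * k.ρ L

variable {X : Type*} {A : Subalgebra ℂ (X → ℂ)} {k : Rp}

/-- real functions in the algebra -/
def Rl (A : Subalgebra ℂ (X → ℂ)) (u : X → ℝ) : Prop := (fun x => (u x : ℂ)) ∈ A

theorem Rl.add {u v : X → ℝ} (h : Rl A u) (h' : Rl A v) : Rl A fun x => u x + v x := by
  simp only [Rl, Complex.ofReal_add]
  exact add_mem h h'

theorem Rl.mul {u v : X → ℝ} (h : Rl A u) (h' : Rl A v) : Rl A fun x => u x * v x := by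
  simp only [Rl, Complex.ofReal_mul]
  exact mul_mem h h'

theorem rl_c (r : ℝ) : Rl A fun _ => r := A.algebraMap_mem (r : ℂ)

theorem Rl.cg {u v : X → ℝ} (h : Rl A u) (e : ∀ x, v x = u x) : Rl A v := funext e ▸ h

theorem Rl.neg {u : X → ℝ} (h : Rl A u) : Rl A fun x => -u x :=
  ((rl_c (-1)).mul h).cg fun _ => by ring

theorem Rl.half {u : X → ℝ} (h : Rl A u) : Rl A fun x => u x / 2 :=
  (h.mul (rl_c 2⁻¹)).cg fun _ => by ring

theorem Rl.mm {c c' : X → Ix → V} (h : ∀ m n, Rl A fun x => c x m n)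
    (h' : ∀ m n, Rl A fun x => c' x m n) (m n : Ix) : Rl A fun x => mm (c x) (c' x) m n := by
  simp only [CA.mm, Fin.sum_univ_four]
  exact ((((h _ _).mul (h' _ _)).add ((h _ _).mul (h' _ _))).add ((h _ _).mul (h' _ _))).add
    ((h _ _).mul (h' _ _))

theorem Rl.np {u v : X → ℝ} (h : Rl A u) (h' : Rl A v) (m n : Ix) :
    Rl A fun x => Np (u x) (v x) m n := by
  have r : Rl A fun x => (u x ^ 2 + v x ^ 2) / 2 :=
    ((h.mul h).add (h'.mul h')).half.cg fun _ => by ring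
  have a : Rl A fun x => 1 - (u x ^ 2 + v x ^ 2) / 2 := ((rl_c 1).add r.neg).cg fun _ => by ring
  fin_cases m <;> fin_cases n <;> first
    | exact h | exact h' | exact h.neg | exact h'.neg | exact r | exact r.neg | exact a
    | exact (rl_c 1).add r | exact rl_c _

theorem Rl.nm {u v : X → ℝ} (h : Rl A u) (h' : Rl A v) (m n : Ix) :
    Rl A fun x => Nm (u x) (v x) m n := by
  have := Rl.mm (Rl.mm (c := fun _ => Wr) (fun _ _ => rl_c _) (h.neg.np h')) (c' := fun _ => Wr)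
    (fun _ _ => rl_c _) m n
  exact this.cg fun x => by rw [nm_eq]

/-- families of Lorentz transformations with matrix elements in the algebra -/
structure Gd (k : Rp) (A : Subalgebra ℂ (X → ℂ)) (c : X → Ix → V) : Prop where
  lor : ∀ x, IsLor (c x)
  mem : ∀ a b, (fun x => k.ρ (c x) a b) ∈ A

theorem gd_c {L : Ix → V} (h : IsLor L) : Gd k A fun _ => L :=
  ⟨fun _ => h, fun a b => A.algebraMap_mem _⟩

variable (t : Tr k)
include t

theorem Gd.mm {c c' : X → Ix → V} (h : Gd k A c) (h' : Gd k A c') :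
    Gd k A fun x => mm (c x) (c' x) := by
  refine ⟨fun x => lor_mm (h'.lor x) (h.lor x), fun a b => ?_⟩
  have := sum_mem fun j (_ : j ∈ Finset.univ) => mul_mem (h.mem a j) (h'.mem j b)
  convert this using 1
  funext x
  simp only [t _ _ (h'.lor x) (h.lor x), Matrix.mul_apply, Finset.sum_apply, Pi.mul_apply]

theorem np_xp (u : ℝ) : k.ρ (Np u 0) = xp (sg k wn) u := by
  have e : ∀ s t : ℝ, mm (Np s 0) (Np t 0) = Np (s + t) 0 := fun s t => by rw [np_add, add_zero]
  obtain ⟨z, hz, h⟩ := grp k (c := fun u => Np u 0) np_zero (fun _ => np_lor _ _) e np_der (u / 2)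
  have : (u : ℂ) = (u / 2 : ℝ) + (u / 2 : ℝ) := by push_cast; ring
  rw [this, xp_add, ← add_halves u, ← e, t _ _ (np_lor _ _) (np_lor _ _), add_halves, h]
  rcases hz with rfl | rfl <;> simp

omit t in
theorem wn_nil : ∃ N, sg k wn ^ N = 0 := by
  have h := rep_row.int k _ _ _ dg_lor (as_wn 1) (as_wn 2) dg_wn
  obtain ⟨z, hz⟩ := rep_row.inv k _ dg_lor
  rw [sg_lin, sg_lin, sg_zero, zero_add, zero_add, Complex.ofReal_one, one_smul] at h
  exact nil h hz

theorem gd_np0 {u : X → ℝ} (h : Rl A u) : Gd k A fun x => Np (u x) 0 := by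
  refine ⟨fun x => np_lor _ _, fun a b => ?_⟩
  obtain ⟨N, hN⟩ := wn_nil (k := k)
  have := sum_mem fun j (_ : j ∈ Finset.range N) =>
    A.smul_mem (pow_mem h j) (((j.factorial : ℂ))⁻¹ * (sg k wn ^ j) a b)
  convert this using 1
  funext x
  rw [np_xp t, xp, NormedSpace.exp_eq_tsum (𝕂 := ℂ)]
  beta_reduce
  rw [tsum_eq_sum (s := Finset.range N) fun j hj => by
    rw [smul_pow, pow_eq_zero_of_le (by simpa using hj) hN, smul_zero, smul_zero]]
  simp only [Matrix.sum_apply, Finset.sum_apply, smul_pow, Matrix.smul_apply, smul_eq_mul,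
    Pi.smul_apply, Pi.pow_apply]
  exact Finset.sum_congr rfl fun j _ => by ring

theorem gd_np {u v : X → ℝ} (h : Rl A u) (h' : Rl A v) : Gd k A fun x => Np (u x) (v x) := by
  have := (gd_np0 t h).mm t (((gd_c (rr_lor (σ := -1) (by simp))).mm t (gd_np0 t h')).mm t
    (gd_c (rr_lor (σ := 1) (by simp))))
  simpa only [← np_rot, np_add, add_zero, zero_add] using this

theorem gd_nm {u v : X → ℝ} (h : Rl A u) (h' : Rl A v) : Gd k A fun x => Nm (u x) (v x) := by
  simp only [nm_eq]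
  exact ((gd_c wr_lor).mm t (gd_np t h.neg h')).mm t (gd_c wr_lor)

theorem gd_dg {l c s : X → ℝ} (hl : Rl A l) (hi : Rl A fun x => (l x)⁻¹) (hc : Rl A c)
    (hs : Rl A s) (l0 : ∀ x, 0 < l x) (h1 : ∀ x, c x ^ 2 + s x ^ 2 = 1) :
    Gd k A fun x => Dg (l x) (c x) (s x) := by
  choose p q hp hq hpq using fun x => ex_pq (l0 x) (h1 x)
  have a1 : Rl A fun x => p x * p x := (hl.mul ((rl_c 1).add hc)).half.cg fun x => by
    rw [← hp, sq]
  have a2 : Rl A fun x => p x * q x := (hl.mul hs).half.cg hpq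
  have a3 : Rl A fun x => q x * q x := (hl.mul ((rl_c 1).add hc.neg)).half.cg fun x => by
    rw [← sub_eq_add_neg, ← hq, sq]
  simp only [Rl, Complex.ofReal_mul] at a1 a2 a3
  let B := dbl A (fun x => p x) (fun x => q x) a1 a2 a3
  have bp : Rl B fun y => sn y.1 * p y.2 :=
    ⟨0, zero_mem _, 1, one_mem _, 0, zero_mem _, fun y => by simp⟩
  have bq : Rl B fun y => sn y.1 * q y.2 :=
    ⟨0, zero_mem _, 0, zero_mem _, 1, one_mem _, fun y => by simp⟩
  have bl : Rl B fun y => (l y.2)⁻¹ := ⟨_, hi, 0, zero_mem _, 0, zero_mem _, fun y => by simp⟩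
  have g := (gd_c wr_lor).mm t (((gd_np t bp bq).mm t
    (gd_nm t (bl.mul bp).neg (bl.mul bq).neg)).mm t (gd_np t bp bq))
  have e : ∀ y : Bool × X, Dg (l y.2) (c y.2) (s y.2) = mm Wr (mm (mm
      (Np (sn y.1 * p y.2) (sn y.1 * q y.2))
      (Nm (-((l y.2)⁻¹ * (sn y.1 * p y.2))) (-((l y.2)⁻¹ * (sn y.1 * q y.2)))))
      (Np (sn y.1 * p y.2) (sn y.1 * q y.2))) := fun y => by
    have s2 := sn_sq y.1
    have ne := (l0 y.2).ne'
    have e1 : (sn y.1 * p y.2) ^ 2 + (sn y.1 * q y.2) ^ 2 = l y.2 := by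
      linear_combination (p y.2 ^ 2 + q y.2 ^ 2) * s2 + hp y.2 + hq y.2
    have := dg_eq (e1 ▸ ne)
    rw [e1] at this
    rw [← this]
    congr 1
    · rw [eq_div_iff ne]
      linear_combination -(p y.2 ^ 2 - q y.2 ^ 2) * s2 - hp y.2 + hq y.2
    · rw [eq_div_iff ne]
      linear_combination -(2 * p y.2 * q y.2) * s2 - 2 * hpq y.2
  simp only [← e] at g
  exact ⟨fun x => g.lor (true, x), fun a b => dbl_out (g.mem a b)⟩

/-- the Lorentz group -/
abbrev Lo := {L : Ix → V // IsLor L}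

/-- polynomial functions -/
def Po : Subalgebra ℂ (Lo → ℂ) :=
  Algebra.adjoin ℂ (Set.range fun p : Ix × Ix => fun L : Lo => (L.1 p.1 p.2 : ℂ))

omit t in
theorem po_c (m n : Ix) : Rl Po fun L => L.1 m n := Algebra.subset_adjoin ⟨(m, n), rfl⟩

theorem cell {w : Ix → V} (hw : IsLor w) (a b : Fin k.n) :
    Rl Po (fun L => lam (mm L.1 w)) ∧
      ∃ N : ℕ, (fun L : Lo => (lam (mm L.1 w) : ℂ)) ^ N * (fun L : Lo => k.ρ L.1 a b) ∈ Po := by
  have c0 : ∀ m n, Rl Po fun L => mm L.1 w m n := Rl.mm po_c fun _ _ => rl_c _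
  have hp : Rl Po fun L => lam (mm L.1 w) :=
    (((c0 0 0).add (c0 1 0)).add ((c0 0 1).add (c0 1 1))).half
  refine ⟨hp, loc_out hp ?_⟩
  let B := loc Po _ hp
  have c1 : ∀ m n, Rl B fun x => mm x.1.1 w m n := fun m n => loc_of hp (c0 m n)
  have hl : Rl B fun x => lam (mm x.1.1 w) := loc_of hp hp
  have hi : Rl B fun x => (lam (mm x.1.1 w))⁻¹ := by
    simp only [Rl, Complex.ofReal_inv]
    exact loc_inv hp
  have hu := hi.mul ((c1 0 2).add (c1 1 2)).half
  have hv := hi.mul ((c1 0 3).add (c1 1 3)).half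
  have c2 := Rl.mm c1 (hu.neg.nm hv.neg)
  have hx := hi.mul (c2 2 0)
  have hy := hi.mul (c2 3 0)
  have c3 := Rl.mm (hx.neg.np hy.neg) c2
  have G := fun x : {x : Lo // (lam (mm x.1 w) : ℂ) ≠ 0} =>
    gauss (lor_mm hw x.1.2) (by exact_mod_cast x.2) rfl rfl rfl rfl rfl rfl
  have g := (((gd_np t hx hy).mm t (gd_dg t hl hi (c3 2 2) (c3 2 3) (fun x => (G x).1)
    fun x => (G x).2.1)).mm t (gd_nm t hu hv)).mm t (gd_c (H246.isLor_linv hw))
  have := g.mem a b
  simp only [← fun x => (G x).2.2] at this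
  simpa only [mm_assoc, (CA.mat_row.inv w hw).1, mm_one] using this

/-- **the matrix elements are polynomials** -/
theorem pol (a b : Fin k.n) : (fun L : Lo => k.ρ L.1 a b) ∈ Po := by
  let w : Fin 4 → Ix → V := ![CA.Mat.R 1 0, CA.Mat.R (-1) 0, CA.Mat.R 1 2, CA.Mat.R 1 1]
  have hw : ∀ i, IsLor (w i) := fun i => by
    fin_cases i
    · exact CA.Mat.R_lor (σ := 1) (by simp) 0
    · exact CA.Mat.R_lor (σ := -1) (by simp) 0
    · exact CA.Mat.R_lor (σ := 1) (by simp) 2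
    · exact CA.Mat.R_lor (σ := 1) (by simp) 1
  let l : Fin 4 → Lo → ℝ := ![fun L => L.1 0 0 - L.1 0 1 + L.1 0 2 + L.1 0 3,
    fun L => L.1 0 0 + L.1 0 1 + L.1 0 2 + L.1 0 3, fun L => -2 * L.1 0 2, fun L => -2 * L.1 0 3]
  have hl : ∀ i, Rl Po (l i) := fun i => by
    fin_cases i
    · exact ((((po_c 0 0).add (po_c 0 1).neg).add (po_c 0 2)).add (po_c 0 3)).cg fun _ => by
        simp [l, sub_eq_add_neg]
    · exact (((po_c 0 0).add (po_c 0 1)).add (po_c 0 2)).add (po_c 0 3)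
    · exact (rl_c _).mul (po_c 0 2)
    · exact (rl_c _).mul (po_c 0 3)
  refine Po.mem_of_finsetSum_eq_one_of_pow_smul_mem Finset.univ
    (fun i L => (lam (mm L.1 (w i)) : ℂ)) (fun i L => (l i L : ℂ)) ?_
    (fun i => (cell t (hw i) a b).1) hl _ fun i => (cell t (hw i) a b).2
  funext L
  have h00 := L.2.1 0 0
  have h01 := L.2.1 0 1
  simp [md, bas, CA.Mat.e0'] at h00 h01
  have : ∑ i, l i L * lam (mm L.1 (w i)) = 1 := by
    simp [l, w, lam, mm, CA.Mat.R, Fin.sum_univ_four]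
    linear_combination h00 + h01
  simp only [Finset.sum_apply, Pi.mul_apply, Pi.one_apply]
  exact_mod_cast this

end

end Vale.Agent.P352H
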