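import Vale.Agent.P352H.Tfg
import Vale.Agent.P352L.Gd.Rec

/-!
# P352H: theories with field reconstruction whose fields are sums of components of multiplets
-/

set_option linter.all false

open Filter Topology

namespace Vale.Agent.P352H

open Vale.Agent.P352 Vale.Agent.P352.GF Vale.Agent.P352.BW Vale.Agent.P352.H246
open Vale.Agent.P352.H496 Vale.Agent.P352.H755 Vale.Agent.P352.H15
open Vale.Agent.P352X Vale.Agent.P352L StA
open UniformSpace (Completion)

noncomputable section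

variable {D : Type*} [NormedAddCommGroup D] [InnerProductSpace ℂ D]

/-- the linear hull of the fields, with the Bose fields of the theory -/
def hl2 (Q : Theory D) : Theory D :=
  { hull Q with
    bose := Q.bose
    bose_fld := fun B hB => sp_of (Q.bose_fld B hB)
    loc := fun B C f g v hB => (hull Q).loc B C f g v (sp_of hB) }

theorem al2 {Q : Theory D} {W : Set V} {X X' : D → D} (h : Al Q W X X') : Al (hl2 Q) W X X' := by
  induction h with
  | one => exact .one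
  | add X X' Y Y' _ _ a b => exact .add _ _ _ _ a b
  | smul c X X' _ a => exact .smul c _ _ a
  | fld A B g X X' a b c d _ e => exact .fld A B g _ _ (sp_of a) (sp_of b) c d e

theorem rec2 {Q : Theory D} (h : L.Rec Q) : L.Rec (hl2 Q) := fun k d φ m w =>
  h k d φ ⟨m.lin, m.cont, m.cov⟩ fun μ f X X' hf hX => w μ f X X' hf (al2 hX)

theorem nologR (Q : Theory D) (T : Ix → Ix → Fld D) (hT : Stress0 Q T) (A : (V → V) → D → D)
    (hA : ND.PCh Q T A) (hM : MfAll Q) (hF : FSL Q) (N : Set V → VonNeumannAlgebra (Completion D))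
    (hN : LNm Q A N) (hU : L.UVac Q) : NoLog Q T := by
  choose F C hC using fun m n => hF (T m n) (Q.bose_fld _ (hT.bose m n))
  obtain ⟨n0, h1, h2⟩ := fam hN.toRep hF hT hA hC
  have h6 := StA.nolog hT hC fun m n h => triv (Q := hull Q) (rep hN.toRep) hU (h1.st 0) (h2 0) h
  obtain ⟨b, e1, e2, -⟩ := ex_base (hull Q) A N (P352H.tfg hN.toRep hM) (lnm hN) hU
  rw [← e2] at h2
  rw [← e1] at h1 h2
  obtain ⟨LL, l1, l2⟩ := ex_pot b h1
  let c := ctx0 b h1 h2 l1 l2
  exact h6 (end_of c ((last D).rows.t3 c) ((last D).rows.main c))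

open CA.G.LG CL Fss.G P352L.Gd in
/-- **theories with field reconstruction** -/
theorem finalR {D' : Type*} [NormedAddCommGroup D'] [InnerProductSpace ℂ D'] (Q : Theory D)
    (T : Ix → Ix → Fld D) (hT : Stress0 Q T) (A : (V → V) → D → D) (hA : ND.PCh Q T A)
    (hG : TfGen Q ∨ MfAll Q) (hF : FSL Q) (N : Set V → VonNeumannAlgebra (Completion D))
    (hN : LNm Q A N) (hU : L.UVac Q) (hR : L.Rec Q) :
    NoLog Q T ∧ ∃ S J, Q.IsStress S ∧ IsImpr Q T (improveJ S J) ∧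
      (∀ Q' : Theory D, IsEnl Q Q' → L.CInv Q' id S J) ∧
      ∀ (Q' : Theory D') i G T' A', Sect Q Q' i → Gr Q' G → Stress0 Q' T' → Gnr Q' A' →
        ND.PCh Q' T' A' → FSL Q' → (∀ m n, Xt i (T m n) (T' m n)) → NoLog Q' T' ∧
          ∃ S' J', Q'.IsStress S' ∧ (∀ m n, Xt i (S m n) (S' m n)) ∧ (∀ m, Xt i (J m) (J' m)) ∧
            IsImpr Q' T' (improveJ S' J') ∧ L.CInv Q' G S' J' := by
  rcases hG with hG | hM
  · exact P352L.Gd.finalR Q T hT A hA hG hF N hN hU hR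
  have hL := nologR Q T hT A hA hM hF N hN hU
  have R := m1_rep hN.toRep
  obtain ⟨S, h1, h2, h3⟩ := fssL R hF hT hL
  obtain ⟨h4, h5⟩ := h3 A hN.toRep hA
  have s0 := str h1
  have s1 : (hl2 Q).IsStress S := ⟨h1.bose, s0.symm, s0.herm, s0.cov, s0.conserved, s0.charge⟩
  have s2 : ND.PCh (hl2 Q) S A := pch hN.toRep (fun m n => Q.bose_fld _ (h1.bose m n)) h4
  have s3 : TfGen (hl2 Q) := P352H.tfg hN.toRep hM
  have n0 := lnm hN
  have s4 : LNm (hl2 Q) A N := ⟨⟨n0.mul, n0.add, n0.der⟩, n0.fld, n0.mono, n0.cov, n0.loc⟩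
  obtain ⟨J, j0, hc⟩ := CA.G.curl_thm (hl2 Q) A S s2 s3 N s4 hU s1 (rec_of (rec2 hR))
  have hJ : IsVirial Q S J := ⟨j0.bose, j0.herm, j0.cov, j0.div⟩
  have m : CA.MixC Q := CA.mix_of (hl2 Q) S s1 A s2 s3 N s4 hU
  have h6 : ∀ Q' : Theory D, IsEnl Q Q' → L.CInv Q' id S J := fun Q' hE => by
    have hT' := H746.isStress_enl hE h1
    have hJ' := H731.enl_virial hE hJ
    exact conf_id hT' hJ' (H246D.impr_of_curl hT' hJ' (hE.vac ▸ hc))
      ((CA.gm_of hN.toRep m).enl hE)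
  have h8 := h6 Q ⟨rfl, rfl, fun _ h => h, fun _ h => h⟩
  refine ⟨hL, S, J, h1, h5 _ h8.impr, h6, fun Q' i G T' A' h g hT' gn hP hF' hx => ?_⟩
  have hL' := CA.G.LG.nolog h R (m1_gr g) hT hT' hF' hx hL
  obtain ⟨S', a1, a2, -⟩ := fssL (m1_gr g) hF' hT' hL'
  have a3 : ∀ m n, Xt i (S m n) (S' m n) := fun m n => by
    obtain ⟨F, C, b1, b2, b3⟩ := h2 m n
    obtain ⟨F', C', b4, b5, b6⟩ := a2 m n
    rw [b3, b6]
    exact xt h R (m1_gr g) (hx m n) b2 b5 b1 b4
  obtain ⟨J', a4, a5⟩ := conf_gr h hN.toRep m g a1 a3 hJ hc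
  exact ⟨hL', S', J', a1, a3, a4,
    Fss.impr hT' hP a1 (rpch (m1_gr g) gn hF' hT' hP a2) a5.impr, a5⟩

end

end Vale.Agent.P352H
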