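import Vale.Agent.P352W.Rp.Der
import Vale.Agent.P352NA.Pub

/-!
# P352H: the domain that is generated by the fields lies in the domain of the generators
-/

set_option linter.all false

noncomputable section

open Filter Topology SchwartzMap Complex
open scoped SchwartzMap

namespace Vale.Agent.P352H

open Vale.Agent.P352 Vale.Agent.P352.GF Vale.Agent.P352.H746 Vale.Agent.P352.H15
open Vale.Agent.P352.H246 Vale.Agent.P352.H496 Vale.Agent.P352W.Rp Vale.Agent.P352X

variable {D : Type*} [NormedAddCommGroup D] [InnerProductSpace ℂ D] {Q : Theory D}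

lemma dif_mul {x : ℝ → D} {y : D} (h : Dif x y) {C : ℝ → ℂ} {C' : ℂ} (hC : HasDerivAt C C' 0) :
    Dif (fun e => C e • x e) (C' • x 0 + C 0 • y) := fun W hW => by
  simp only [hW.smul, hW.add]
  have h1 := hC.fun_smul (h W hW)
  rw [add_comm] at h1
  exact h1

lemma tsim {s : ℝ} {L : Ix → V} (hs : 0 < s) (hL : IsLor L) (a : V) {f : Fn} (hf : GF.IsTest f) :
    GF.IsTest fun x => f (sim s L a x) := by
  obtain ⟨F, rfl⟩ := exists_fl hf
  rw [fl_sim s hs hL]
  exact isTest_fl _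

lemma gd_fld {ι : Type*} [Fintype ι] {B : ι → Fld D} (hB : ∀ k, Q.fld (B k)) {B0 : Fld D}
    (C : ℝ → (Ix → V) → ι → ℂ) (C' : (V → V) → ι → ℂ)
    (hC : ∀ s L a X k, Cv s L a X → HasDerivAt (fun e => C (s e) (L e) k) (C' X k) 0)
    (hC' : ∀ X X' (t : ℝ) k, C' (fun z => X z + t • X' z) k = C' X k + t * C' X' k)
    (cov : ∀ s L a f v, 0 < s → IsLor L → GF.IsTest f → B0 f (Q.U s L a v) =
      ∑ k, C s L k • Q.U s L a (B k (fun x => f (sim s L a x)) v))
    {f : Fn} (hf : GF.IsTest f) {v : D} (hv : Gd Q v) : Gd Q (B0 f v) := by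
  obtain ⟨Y, h1, h2⟩ := hv
  refine ⟨fun X => ∑ k, (C' X k • B k f v +
    C 1 GF.one k • (B k (vf X f) v + B k f (Y X))), fun r r' t X X' hX hX' => ?_,
    fun s L a X K => ?_⟩
  · have e1 : vf (fun z => X z + t • X' z) f = fun x => vf X f x + (t : ℂ) * vf X' f x := by
      funext x
      simp only [vf, Pi.add_apply, Pi.smul_apply, smul_eq_mul, Finset.mul_sum,
        ← Finset.sum_add_distrib]
      refine Finset.sum_congr rfl fun n _ => ?_
      push_cast
      ring
    simp only [Finset.smul_sum, ← Finset.sum_add_distrib]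
    refine Finset.sum_congr rfl fun k _ => ?_
    rw [h1 r r' t X X' hX hX', hC', e1,
      Q.lin _ _ _ _ v (hB k) (isTest_vf hX hf) (isTest_vf hX' hf), (aj_fld (hB k) hf).add,
      (aj_fld (hB k) hf).smul]
    module
  · obtain ⟨x, h3, h4⟩ := h2 s L a X K
    obtain ⟨F, rfl⟩ := exists_fl hf
    have x0 : x 0 = v := by rw [← h3 0, U_at0 K.1]
    refine ⟨fun e => ∑ k, C (s e) (L e) k • B k (fl (K.1.cs F e)) (x e), fun e => ?_, ?_⟩
    · obtain ⟨u, hu⟩ := U_lin (Q := Q) (K.1.sp e) (K.1.lor e) (a e)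
      rw [← h3 e, cov _ _ _ _ _ (K.1.sp e) (K.1.lor e) hf, hu, map_sum]
      refine Finset.sum_congr rfl fun k _ => ?_
      rw [map_smul, hu, fl_sim (s e) (K.1.sp e) (K.1.lor e)]
      rfl
    · refine dif_sum _ fun k => ?_
      have h5 := dif_mul (h4.fld (hB k) (g := K.1.cs F) (g' := vfS (wX X) (rX X) (X 0) F)
        (by rw [K.1.cs_zero]; exact K.1.tend F)) (hC s L a X k K)
      simp only [K.1.cs_zero, x0, K.1.s0, K.1.L0, fl_vfS K.2] at h5
      exact h5

/-- **The similitudes are differentiable on the domain that is generated by the fields.** -/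
theorem rep_gen (Q : Theory D)
    (mul : ∀ s L a s' L' a' v, 0 < s → 0 < s' → IsLor L → IsLor L' →
      Q.U s L a (Q.U s' L' a' v) = Q.U (s * s') (fun m => sim 1 L 0 (L' m)) (sim s L a a') v)
    (gen : ∀ w, P352NA.Cyc Q w) (hM : MfAll Q) (hF : FSL Q) : ∃ A, Rep Q A := by
  refine rep_of Q mul fun w => ?_
  have o := H496.isLor_one
  let S : Submodule ℂ D :=
    { carrier := {v | Gd Q v}
      add_mem' := fun hv hw => Gd.add hv hw
      zero_mem' := gd_inv fun s L a hs hL => by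
        obtain ⟨u, hu⟩ := U_lin (Q := Q) hs hL a
        rw [hu, map_zero]
      smul_mem' := fun c _ hv => Gd.smul hv c }
  refine gen w S (gd_inv Q.U_vac) fun B f v hB hf hv => ?_
  obtain ⟨n, E, h2, h3⟩ := hM B hB
  rw [h3 f v hf]
  refine sum_mem fun i _ => ?_
  obtain ⟨k, Φ, c, hΦ, e⟩ := h2 i
  rw [e]
  choose F C hC using fun b => hF _ (hΦ.1 b)
  refine gd_fld (ι := Σ b, F b) (B := fun p => C p.1 p.2) (fun p => ((hC p.1).1 _).1)
    (fun s L p => k.ρ L p.1 c * ((s : ℂ) ^ (4 - p.2.1.1) * (Real.log s : ℂ) ^ p.2.1.2))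
    (fun X p => (∑ m, ∑ n, wX X m n * k.S m n p.1 c) * 0 ^ p.2.1.2 + k.ρ GF.one p.1 c *
      ((4 - p.2.1.1) * rX X * 0 ^ p.2.1.2 + p.2.1.2 * 0 ^ (p.2.1.2 - 1) * rX X))
    (fun s L a X p K => ?_) (fun X X' t p => ?_) (fun s L a f v hs hL hf => ?_) hf hv
  · have d1 := k.der L _ p.1 c K.1.L0 K.1.lor K.1.dL
    have d0 := K.1.ds.ofReal_comp
    have d2 : HasDerivAt (fun e => (s e : ℂ) ^ (4 - p.2.1.1)) ((4 - p.2.1.1) * rX X) 0 := by
      have := (Complex.hasStrictDerivAt_cpow_const (c := 4 - p.2.1.1) (x := (s 0 : ℂ))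
        (by rw [K.1.s0]; simp)).hasDerivAt.scomp (h := fun e => (s e : ℂ)) (0 : ℝ) d0
      refine this.congr_deriv ?_
      rw [K.1.s0]
      simp [mul_comm]
    have d3 := ((K.1.ds.log (K.1.sp 0).ne').ofReal_comp).fun_pow p.2.1.2
    refine (d1.fun_mul (d2.fun_mul d3)).congr_deriv ?_
    simp [K.1.s0, K.1.L0]
  · simp only [rX_add, wX_add, ofReal_add, ofReal_mul, add_mul, Finset.sum_add_distrib, mul_assoc,
      ← Finset.mul_sum]
    ring
  · have e1 : ∀ z, Q.U s L a z = Q.U 1 GF.one a (Q.U 1 L 0 (Q.U s GF.one 0 z)) := fun z => by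
      have l : (fun m => sim 1 L 0 (GF.one m)) = L := by
        funext m n
        simp [sim, GF.one, bas]
      rw [mul _ _ _ _ _ _ _ one_pos hs hL o, l, mul _ _ _ _ _ _ _ one_pos (by simpa) o hL, one_mul,
        one_mul]
      congr 1
      · funext m n
        simp [sim, GF.one, bas]
      · funext n
        simp [sim]
    have e2 : ∀ x, sim 1 GF.one a (sim 1 L 0 (sim s GF.one 0 x)) = sim s L a x := fun x => by
      funext n
      simp [sim, GF.one, bas, Finset.mul_sum, mul_assoc]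
    have t1 := tsim one_pos o a hf
    have t2 := tsim one_pos hL 0 t1
    obtain ⟨u, hu⟩ := U_lin (Q := Q) one_pos o a
    obtain ⟨u', hu'⟩ := U_lin (Q := Q) one_pos hL 0
    rw [e1, Q.transl _ a f _ (hΦ.1 c) hf, hΦ.2 c L _ _ hL t1, Fintype.sum_sigma]
    simp only [fun b => (hC b).2 s _ v hs t2, e1 (C _ _ _ _), e2]
    simp only [hu, hu', map_sum, map_smul, Finset.smul_sum, smul_smul]
    exact Finset.sum_congr rfl fun b _ => (Finset.sum_coe_sort _ _).symm

end Vale.Agent.P352H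

end
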