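import Vale.Agent.P352H.Itw
import Vale.Agent.P352L.StA

/-!
# P352H: the vacuum is cyclic for the tensor fields; the hypotheses pass to the linear hull
-/

set_option linter.all false

open Filter Topology

namespace Vale.Agent.P352H

open Vale.Agent.P352X Vale.Agent.P352L
open Vale.Agent.P352 Vale.Agent.P352.GF Vale.Agent.P352.BW Vale.Agent.P352.H246
open Vale.Agent.P352.H496 Vale.Agent.P352.H755 Vale.Agent.P352.H15
open Vale.Agent.P352X.CA (mm mat_row)
open Vale.Agent.P352X.CA.G.Rp0 (lor_mm)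
open StA (hull sp_of sp_ind sp_fl)
open Matrix

noncomputable section

variable {D : Type*} [NormedAddCommGroup D] [InnerProductSpace ℂ D] {Q : Theory D}
  {A : (V → V) → D → D} {T : Ix → Ix → Fld D}

/-- the Lorentz transformations as linear maps -/
def ul (Q : Theory D) {L : Ix → V} (hL : IsLor L) : D →ₗ[ℂ] D :=
  ⟨⟨Q.U 1 L 0, U_add one_pos hL 0⟩, U_smul one_pos hL 0⟩

theorem ul_ap {L : Ix → V} (hL : IsLor L) (v : D) : Q.U 1 L 0 v = ul Q hL v := rfl

theorem sim_mm (L L' : Ix → V) (x : V) : sim 1 (mm L' L) 0 x = sim 1 L 0 (sim 1 L' 0 x) := by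
  funext n
  simp only [sim, mm, Pi.zero_apply, zero_add, one_mul, Finset.mul_sum, Finset.sum_mul, mul_assoc]
  exact Finset.sum_comm

theorem u_mm (R : Rep Q A) {L L' : Ix → V} (hL : IsLor L) (hL' : IsLor L') (v : D) :
    Q.U 1 L 0 (Q.U 1 L' 0 v) = Q.U 1 (mm L' L) 0 v := by
  rw [R.mul _ _ _ _ _ _ _ one_pos one_pos hL hL', one_mul, mat_row.sim]
  congr 1
  funext n
  simp [sim]

theorem u_sur (R : Rep Q A) {L : Ix → V} (hL : IsLor L) (w : D) : ∃ v, Q.U 1 L 0 v = w := by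
  have o := H496.isLor_one
  refine ⟨Q.U 1 (linv L) 0 w, ?_⟩
  rw [u_mm R hL (isLor_linv hL), (mat_row.inv L hL).2]
  refine sub_eq_zero.1 (StA.u_inj (Q := Q) o ?_)
  rw [ul_ap o, map_sub, ← ul_ap, ← ul_ap, u_mm R o o, CA.G.Rp0.mm_one, sub_self]

/-- multiplets with a sign vanish -/
theorem sign (R : Rep Q A) {k : Rp} {Φ : Fin k.n → Fld D} (h : IsMf Q k Φ) :
    Tr k ∨ ∀ a f v, IsTest f → Φ a f v = 0 := by
  refine or_iff_not_imp_left.2 fun n a f w hf => ?_
  simp only [Tr, not_forall] at n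
  obtain ⟨L, L', hL, hL', n⟩ := n
  have e := (k.mul L L' hL hL').resolve_left (by rwa [mat_row.sim])
  rw [mat_row.sim] at e
  have l := lor_mm hL hL'
  obtain ⟨v, rfl⟩ := u_sur R l w
  have h1 := h.2 a _ f v l hf
  have h2 := h.2 a _ f (Q.U 1 L' 0 v) hL hf
  simp only [fun b => h.2 b L' _ v hL' (Ap.test_sim one_pos hL 0 hf), ul_ap hL, map_sum,
    map_smul] at h2
  simp only [← ul_ap, u_mm R hL hL', ← sim_mm, Finset.smul_sum, smul_smul] at h2
  rw [Finset.sum_comm] at h2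
  simp only [e, Matrix.neg_apply, Matrix.mul_apply, neg_smul, Finset.sum_neg_distrib,
    Finset.sum_smul, mul_comm (k.ρ L' _ _)] at h1
  rw [← h2, eq_neg_iff_add_eq_zero, ← two_smul ℂ] at h1
  exact (smul_eq_zero.1 h1).resolve_left two_ne_zero

theorem sum_ap {ι : Type*} (s : Finset ι) (c : ι → ℂ) (B : ι → Fld D) (f : Fn) (v : D) :
    (∑ i ∈ s, c i • B i) f v = ∑ i ∈ s, c i • B i f v := by
  simp only [Finset.sum_apply, Pi.smul_apply]

/-- **the vacuum is cyclic for the tensor fields of the hull** -/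
theorem tfg (R : Rep Q A) (hM : MfAll Q) : TfGen (hull Q) := fun S h0 h1 => by
  refine Q.cyclic S h0 fun B f v hB hf hv => ?_
  obtain ⟨n, C, h2, h3⟩ := hM B hB
  rw [h3 f v hf]
  refine sum_mem fun i _ => ?_
  obtain ⟨k, Φ, a, hΦ, e⟩ := h2 i
  rw [e]
  rcases sign R hΦ with t | z
  swap
  · rw [z a f v hf]
    exact zero_mem _
  have key : ∀ x ∈ Submodule.span ℂ {x | ∃ (r : ℕ) (M : (Fin r → Ix) → Fin k.n → ℂ)
      (μ : Fin r → Ix), Iw k M ∧ x = M μ}, ∑ b, x b • Φ b f v ∈ S := by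
    intro x hx
    induction hx using Submodule.span_induction with
    | mem x hx =>
      obtain ⟨r, M, μ, hM, rfl⟩ := hx
      rw [← sum_ap]
      refine h1 r (fun μ => ∑ b, M μ b • Φ b) μ f v ⟨fun μ => sum_mem fun b _ =>
        Submodule.smul_mem _ _ (sp_of (hΦ.1 b)), fun μ L f v hL hf => ?_⟩ hf hv
      show _ = ∑ ν, tn L ν μ • Q.U 1 L 0 _
      have e : ∀ c, ∑ b, M μ b * k.ρ L c b = ∑ ν, tn L ν μ * M ν c := fun c => by
        have := congrFun (hM μ L hL) c
        simpa only [mulVec, dotProduct, mul_comm (k.ρ L c _), Finset.sum_apply, Pi.smul_apply,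
          smul_eq_mul] using this
      show (∑ b, M μ b • Φ b) f (Q.U 1 L 0 v) = _
      simp only [sum_ap, fun b => hΦ.2 b L f v hL hf]
      simp only [ul_ap hL, map_sum, map_smul, Finset.smul_sum, smul_smul]
      refine Finset.sum_comm.trans (Eq.trans ?_ Finset.sum_comm)
      simp only [← Finset.sum_smul, e]
    | zero => simp
    | add x y _ _ hx hy =>
      simpa only [Pi.add_apply, add_smul, Finset.sum_add_distrib] using add_mem hx hy
    | smul c x _ hx =>
      simpa only [Pi.smul_apply, smul_eq_mul, mul_smul, ← Finset.smul_sum] using S.smul_mem c hx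
  simpa [Pi.single_apply] using key _ (span_iw t a)

theorem mfa (hM : MfAll Q) : MfAll (hull Q) := fun B hB => by
  have key : ∃ l : List (Fld D), (∀ C ∈ l, ∃ k Φ a, IsMf (hull Q) k Φ ∧ C = Φ a) ∧
      ∀ f v, IsTest f → B f v = (l.map fun C => C f v).sum := by
    refine sp_ind (p := fun B => ∃ l : List (Fld D),
      (∀ C ∈ l, ∃ k Φ a, IsMf (hull Q) k Φ ∧ C = Φ a) ∧
        ∀ f v, IsTest f → B f v = (l.map fun C => C f v).sum) hB (fun B hB => ?_)
      ⟨[], by simp, by simp⟩ fun B C c ⟨l, a, b⟩ ⟨l', a', b'⟩ =>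
        ⟨l ++ l'.map (c • ·), fun E hE => ?_, fun f v hf => ?_⟩
    · obtain ⟨n, C, h2, h3⟩ := hM B hB
      refine ⟨List.ofFn C, fun E hE => ?_, fun f v hf => ?_⟩
      · obtain ⟨i, rfl⟩ := List.mem_ofFn.1 hE
        obtain ⟨k, Φ, a, hΦ, e⟩ := h2 i
        exact ⟨k, Φ, a, ⟨fun b => sp_of (hΦ.1 b), hΦ.2⟩, e⟩
      · rw [h3 f v hf, List.map_ofFn, List.sum_ofFn]
        rfl
    · rcases List.mem_append.1 hE with h | h
      · exact a E h
      obtain ⟨E', h', rfl⟩ := List.mem_map.1 h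
      obtain ⟨k, Φ, i, hΦ, rfl⟩ := a' E' h'
      refine ⟨k, fun b => c • Φ b, i, ⟨fun b => Submodule.smul_mem _ _ (hΦ.1 b),
        fun b L f v hL hf => ?_⟩, rfl⟩
      have := hΦ.2 b L f v hL hf
      simp only [Pi.smul_apply, this, Finset.smul_sum]
      exact Finset.sum_congr rfl fun j _ => by rw [U_smul one_pos hL, smul_comm]
    · beta_reduce
      rw [b f v hf, b' f v hf, List.map_append, List.sum_append, List.smul_sum, List.map_map,
        List.map_map]
      rfl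
  obtain ⟨l, a, b⟩ := key
  refine ⟨l.length, l.get, fun i => a _ (List.get_mem _ _), fun f v hf => ?_⟩
  rw [b f v hf, ← List.sum_ofFn]
  conv_lhs => rw [← List.ofFn_get l, List.map_ofFn]
  rfl

theorem scl_sp {P : Fld D → Prop} (hP : ∀ B, P B → ∃ F C, (∀ p, P (C p)) ∧ Scl Q B F C) {B : Fld D}
    (hB : B ∈ StA.Sp P) : ∃ (F : Finset (ℂ × ℕ)) (C : ℂ × ℕ → Fld D), (∀ p, C p ∈ StA.Sp P) ∧
      ∀ (s : ℝ) f v, 0 < s → IsTest f → B f (Q.U s GF.one 0 v) =
        ∑ p ∈ F, ((s : ℂ) ^ (4 - p.1) * (Real.log s : ℂ) ^ p.2) •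
          Q.U s GF.one 0 (C p (fun x => f (sim s GF.one 0 x)) v) := by
  classical
  refine sp_ind (p := fun B => ∃ (F : Finset (ℂ × ℕ)) (C : ℂ × ℕ → Fld D),
    (∀ p, C p ∈ StA.Sp P) ∧ ∀ (s : ℝ) f v, 0 < s → IsTest f → B f (Q.U s GF.one 0 v) =
        ∑ p ∈ F, ((s : ℂ) ^ (4 - p.1) * (Real.log s : ℂ) ^ p.2) •
          Q.U s GF.one 0 (C p (fun x => f (sim s GF.one 0 x)) v)) hB (fun B hB => ?_)
    ⟨∅, 0, fun _ => zero_mem _, by simp⟩ fun B C c ⟨F, E, a, b⟩ ⟨F', E', a', b'⟩ =>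
      ⟨F ∪ F', fun p => (if p ∈ F then E p else 0) + c • (if p ∈ F' then E' p else 0),
        fun p => add_mem ?_ (Submodule.smul_mem _ _ ?_), fun s f v hs hf => ?_⟩
  · obtain ⟨F, C, a, b⟩ := hP B hB
    exact ⟨F, C, fun p => sp_of (a p), b.2⟩
  · split_ifs
    exacts [a p, zero_mem _]
  · split_ifs
    exacts [a' p, zero_mem _]
  · have o := H496.isLor_one
    have z : Q.U s GF.one 0 0 = 0 := by simpa using U_smul (Q := Q) hs o 0 0 0
    simp only [Pi.add_apply, Pi.smul_apply, U_add hs o, U_smul hs o, smul_add,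
      Finset.sum_add_distrib, b s f v hs hf, b' s f v hs hf, Finset.smul_sum]
    congr 1
    · refine (Finset.sum_subset_zero_on_sdiff Finset.subset_union_left (fun p hp => ?_)
        fun p hp => by rw [if_pos hp])
      rw [if_neg (Finset.mem_sdiff.1 hp).2, Pi.zero_apply, Pi.zero_apply, z, smul_zero]
    · refine (Finset.sum_subset_zero_on_sdiff Finset.subset_union_right (fun p hp => ?_)
        fun p hp => by rw [if_pos hp, smul_comm])
      rw [if_neg (Finset.mem_sdiff.1 hp).2, Pi.zero_apply, Pi.zero_apply, z, smul_zero, smul_zero]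

theorem fsl (hF : FSL Q) : FSL (hull Q) := fun B hB => by
  by_cases h : (hull Q).bose B
  · obtain ⟨F, C, a, b⟩ := scl_sp (Q := Q) (P := Q.bose) (fun B hB => by
      obtain ⟨F, C, h⟩ := hF B (Q.bose_fld _ hB)
      exact ⟨F, C, fun p => (h.1 p).2 hB, h⟩) h
    exact ⟨F, C, fun p => ⟨(hull Q).bose_fld _ (a p), fun _ => a p⟩, b⟩
  · obtain ⟨F, C, a, b⟩ := scl_sp (Q := Q) (P := Q.fld) (fun B hB => by
      obtain ⟨F, C, h⟩ := hF B hB
      exact ⟨F, C, fun p => (h.1 p).1, h⟩) hB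
    exact ⟨F, C, fun p => ⟨a p, fun k => (h k).elim⟩, b⟩

theorem str (hT : Q.IsStress T) : (hull Q).IsStress T := by
  refine ⟨fun m n => sp_of (hT.bose m n), hT.symm, hT.herm, hT.cov, hT.conserved,
    fun F n B f v w hF hB hf hc => ?_⟩
  refine StA.lim_sp ((isTest_cutoff hF).mono fun r hr =>
    (Fss.fl (Q.bose_fld _ (hT.bose o n)) hr).isLinear) v w
    (fun B => (Complex.I * eta n) • B (pd n f) v) (by simp) (fun B C a => ?_)
    (fun B hB => hT.charge F n B f v w hF hB hf hc) hB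
  rw [smul_add, smul_comm]

theorem pch (R : Rep Q A) (hT : ∀ m n, Q.fld (T m n)) (h : ND.PCh Q T A) :
    ND.PCh (hull Q) T A := fun F X B f v w hF hX hB hf hc => by
  refine StA.lim_sp ((isTest_cutoff hF).mono fun r hr => ?_) v w
    (fun B => A X (B f v) - B f (A X v)) ?_ (fun B C a => ?_)
    (fun B hB => h F X B f v w hF hX hB hf hc) hB
  · exact funext (Fss.curL_apply hT hX hr) ▸ (Fss.curL hT hX hr).isLinear
  · simpa using H746.A_smulv R hX 0 v
  · simp only [H746.A_addv R hX, H746.A_smulv R hX]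
    module

end

end Vale.Agent.P352H
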